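import Mathlib

/-!
# P141, real ties: the Irwin-Hall path and its exact three-gap decomposition

`m` = minus the sum of the four cell indices at a scale, `b i` the next digits, `h i = 1 - 2 b i`,
`f i = (b i + f' i) / 2` the positions in the cells. Kernels: `w = (1, 4, 1)`, `d1 = (1, 0, -1)`,
`d2 = (1, -2, 1)` on `m = 1, 2, 3`. One scale finer: `m' = 2 m - ∑ b i`, factor `2`.

* `w_step`, `d1_step`, `d2_step`: the recursions in the signs `h i`;
* `path_step`: `P' - P = 3 (Y' - Y) + ` terms of order four, `Y = d1 · ∑ (f i - 1 / 2)`;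
* `plane_d2`, `plane_d1`: on plane sums `d2` is a product of two neighbour differences, `d1` a
  difference of two cells.
-/

namespace Vale.Agent.P141.H208

noncomputable section

/-- Irwin-Hall weights -/
def w (m : ℤ) : ℝ := if m = 1 then 1 else if m = 2 then 4 else if m = 3 then 1 else 0
/-- first difference pattern -/
def d1 (m : ℤ) : ℝ := if m = 1 then 1 else if m = 3 then -1 else 0
/-- second difference pattern -/
def d2 (m : ℤ) : ℝ := if m = 1 then 1 else if m = 2 then -2 else if m = 3 then 1 else 0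
/-- the middle plane -/
def e2 (m : ℤ) : ℝ := if m = 2 then 1 else 0
/-- the weights of the four-sign term in the recursion of `d2` -/
def g4 (m : ℤ) : ℝ := if m = 1 then -3 / 4 else if m = 2 then -5 / 2 else if m = 3 then -3 / 4 else 0

/-- elementary symmetric polynomials of four numbers -/
def S1 (h : Fin 4 → ℝ) : ℝ := h 0 + h 1 + h 2 + h 3
def S2 (h : Fin 4 → ℝ) : ℝ :=
  h 0 * h 1 + h 0 * h 2 + h 0 * h 3 + h 1 * h 2 + h 1 * h 3 + h 2 * h 3
def S3 (h : Fin 4 → ℝ) : ℝ :=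
  h 0 * h 1 * h 2 + h 0 * h 1 * h 3 + h 0 * h 2 * h 3 + h 1 * h 2 * h 3
def S4 (h : Fin 4 → ℝ) : ℝ := h 0 * h 1 * h 2 * h 3

/-- the sign of a digit -/
def hs (b : ℤ) : ℝ := 1 - 2 * (b : ℝ)

theorem sum_dig {b : Fin 4 → ℤ} (hb : ∀ i, b i = 0 ∨ b i = 1) :
    0 ≤ ∑ i, b i ∧ ∑ i, b i ≤ 4 := by
  have h0 := hb 0; have h1 := hb 1; have h2 := hb 2; have h3 := hb 3
  rw [Fin.sum_univ_four]
  omega

theorem w_step (m : ℤ) (b : Fin 4 → ℤ) (hb : ∀ i, b i = 0 ∨ b i = 1) :
    2 * w (2 * m - ∑ i, b i) = w m + 3 / 4 * S1 (fun i => hs (b i)) * d1 m +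
      1 / 2 * S2 (fun i => hs (b i)) * d2 m + 1 / 4 * S3 (fun i => hs (b i)) * d1 m +
      2 * S4 (fun i => hs (b i)) * e2 m := by
  by_cases hm : m < 1 ∨ 3 < m
  · have hs := sum_dig hb
    have e1 : ¬ 2 * m - ∑ i, b i = 1 := by omega
    have e2' : ¬ 2 * m - ∑ i, b i = 2 := by omega
    have e3 : ¬ 2 * m - ∑ i, b i = 3 := by omega
    have f1 : ¬ m = 1 := by omega
    have f2 : ¬ m = 2 := by omega
    have f3 : ¬ m = 3 := by omega
    simp [w, d1, d2, e2, e1, e2', e3, f1, f2, f3]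
  · have hm' : m = 1 ∨ m = 2 ∨ m = 3 := by omega
    rcases hm' with rfl | rfl | rfl <;> rcases hb 0 with h0 | h0 <;> rcases hb 1 with h1 | h1 <;>
      rcases hb 2 with h2 | h2 <;> rcases hb 3 with h3 | h3 <;>
      norm_num [w, d1, d2, e2, S1, S2, S3, S4, hs, Fin.sum_univ_four, h0, h1, h2, h3]

theorem d1_step (m : ℤ) (b : Fin 4 → ℤ) (hb : ∀ i, b i = 0 ∨ b i = 1) :
    2 * d1 (2 * m - ∑ i, b i) = 1 / 2 * d1 m + 1 / 4 * S1 (fun i => hs (b i)) * d2 m -
      1 / 4 * S3 (fun i => hs (b i)) * d2 m - 1 / 2 * S4 (fun i => hs (b i)) * d1 m := by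
  by_cases hm : m < 1 ∨ 3 < m
  · have hs := sum_dig hb
    have e1 : ¬ 2 * m - ∑ i, b i = 1 := by omega
    have e3 : ¬ 2 * m - ∑ i, b i = 3 := by omega
    have f1 : ¬ m = 1 := by omega
    have f2 : ¬ m = 2 := by omega
    have f3 : ¬ m = 3 := by omega
    simp [d1, d2, e1, e3, f1, f2, f3]
  · have hm' : m = 1 ∨ m = 2 ∨ m = 3 := by omega
    rcases hm' with rfl | rfl | rfl <;> rcases hb 0 with h0 | h0 <;> rcases hb 1 with h1 | h1 <;>
      rcases hb 2 with h2 | h2 <;> rcases hb 3 with h3 | h3 <;>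
      norm_num [w, d1, d2, e2, S1, S2, S3, S4, hs, Fin.sum_univ_four, h0, h1, h2, h3]

theorem d2_step (m : ℤ) (b : Fin 4 → ℤ) (hb : ∀ i, b i = 0 ∨ b i = 1) :
    2 * d2 (2 * m - ∑ i, b i) = 1 / 4 * d2 m - 1 / 4 * S2 (fun i => hs (b i)) * d2 m -
      1 / 2 * S3 (fun i => hs (b i)) * d1 m + S4 (fun i => hs (b i)) * g4 m := by
  by_cases hm : m < 1 ∨ 3 < m
  · have hs := sum_dig hb
    have e1 : ¬ 2 * m - ∑ i, b i = 1 := by omega
    have e2' : ¬ 2 * m - ∑ i, b i = 2 := by omega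
    have e3 : ¬ 2 * m - ∑ i, b i = 3 := by omega
    have f1 : ¬ m = 1 := by omega
    have f2 : ¬ m = 2 := by omega
    have f3 : ¬ m = 3 := by omega
    simp [d1, d2, g4, e1, e2', e3, f1, f2, f3]
  · have hm' : m = 1 ∨ m = 2 ∨ m = 3 := by omega
    rcases hm' with rfl | rfl | rfl <;> rcases hb 0 with h0 | h0 <;> rcases hb 1 with h1 | h1 <;>
      rcases hb 2 with h2 | h2 <;> rcases hb 3 with h3 | h3 <;>
      norm_num [w, d1, d2, e2, g4, S1, S2, S3, S4, hs, Fin.sum_univ_four, h0, h1, h2, h3]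

/-- **The path step.** `f' i` arbitrary, `f i = (b i + f' i) / 2`. -/
theorem path_step (m : ℤ) (b : Fin 4 → ℤ) (hb : ∀ i, b i = 0 ∨ b i = 1) (f' : Fin 4 → ℝ) :
    2 * w (2 * m - ∑ i, b i) - w m =
      3 * (2 * d1 (2 * m - ∑ i, b i) * ∑ i, (f' i - 1 / 2) -
        d1 m * ∑ i, (((b i : ℝ) + f' i) / 2 - 1 / 2)) -
      3 / 4 * S1 (fun i => hs (b i)) * (∑ i, (f' i - 1 / 2)) * d2 m +
      1 / 2 * S2 (fun i => hs (b i)) * d2 m + 1 / 4 * S3 (fun i => hs (b i)) * d1 m +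
      2 * S4 (fun i => hs (b i)) * e2 m +
      3 / 4 * S3 (fun i => hs (b i)) * (∑ i, (f' i - 1 / 2)) * d2 m +
      3 / 2 * S4 (fun i => hs (b i)) * (∑ i, (f' i - 1 / 2)) * d1 m := by
  have e : (∑ i, (((b i : ℝ) + f' i) / 2 - 1 / 2)) =
      1 / 2 * (∑ i, (f' i - 1 / 2)) - 1 / 4 * S1 (fun i => hs (b i)) := by
    simp only [Fin.sum_univ_four, S1, hs]
    ring
  rw [w_step m b hb, d1_step m b hb, e]
  ring

/-- on a plane sum `d2` is the product of two neighbour differences -/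
theorem plane_d2 {E : Type*} [NormedAddCommGroup E] [NormedSpace ℝ E] [CompleteSpace E]
    (c : ℤ) (φ : ℤ → ℝ) (ψ : ℤ → E) (hφ : (Function.support φ).Finite) :
    ∑' a : ℤ, ∑' b : ℤ, (d2 (c - a - b) * φ a) • ψ b =
      ∑' a : ℤ, (φ a - φ (a - 1)) • (ψ (c - 1 - a) - ψ (c - 2 - a)) := by
  have h1 : ∀ a : ℤ, ∑' b : ℤ, (d2 (c - a - b) * φ a) • ψ b =
      φ a • (ψ (c - a - 1) - (2 : ℝ) • ψ (c - a - 2) + ψ (c - a - 3)) := by
    intro a
    have h2 : ∀ b ∉ ({c - a - 1, c - a - 2, c - a - 3} : Finset ℤ),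
        (d2 (c - a - b) * φ a) • ψ b = 0 := by
      intro b hb
      simp only [Finset.mem_insert, Finset.mem_singleton, not_or] at hb
      have e1 : ¬ c - a - b = 1 := by omega
      have e2' : ¬ c - a - b = 2 := by omega
      have e3 : ¬ c - a - b = 3 := by omega
      simp [d2, e1, e2', e3]
    rw [tsum_eq_sum h2, Finset.sum_insert, Finset.sum_insert, Finset.sum_singleton]
    · have g1 : c - a - (c - a - 1) = 1 := by ring
      have g2 : c - a - (c - a - 2) = 2 := by ring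
      have g3 : c - a - (c - a - 3) = 3 := by ring
      rw [g1, g2, g3]
      norm_num [d2]
      module
    · simp only [Finset.mem_singleton]; omega
    · simp only [Finset.mem_insert, Finset.mem_singleton]; omega
  simp only [h1]
  have hs : ∀ g : ℤ → E, Summable fun a : ℤ => φ a • g a := by
    intro g
    refine summable_of_hasFiniteSupport (hφ.subset ?_)
    intro a ha h0
    exact ha (by simp [h0])
  have hshift : ∀ g : ℤ → E, ∑' a : ℤ, φ (a - 1) • g a = ∑' a : ℤ, φ a • g (a + 1) := by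
    intro g
    have := (Equiv.addRight (1 : ℤ)).tsum_eq (fun a : ℤ => φ (a - 1) • g a)
    rw [← this]
    simp
  have hs' : ∀ g : ℤ → E, Summable fun a : ℤ => φ (a - 1) • g a := by
    intro g
    have := (Equiv.addRight (1 : ℤ)).summable_iff (f := fun a : ℤ => φ (a - 1) • g a)
    rw [← this]
    simpa [Function.comp_def] using hs fun a => g (a + 1)
  have e : ∀ a : ℤ, (φ a - φ (a - 1)) • (ψ (c - 1 - a) - ψ (c - 2 - a)) =
      φ a • (ψ (c - 1 - a) - ψ (c - 2 - a)) - φ (a - 1) • (ψ (c - 1 - a) - ψ (c - 2 - a)) := by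
    intro a; rw [sub_smul]
  simp only [e]
  rw [(hs _).tsum_sub (hs' _), hshift, ← (hs _).tsum_sub (hs _)]
  refine tsum_congr fun a => ?_
  rw [← smul_sub]
  congr 1
  have g1 : c - 1 - a = c - a - 1 := by ring
  have g2 : c - 2 - a = c - a - 2 := by ring
  have g3 : c - 1 - (a + 1) = c - a - 2 := by ring
  have g4 : c - 2 - (a + 1) = c - a - 3 := by ring
  rw [g1, g2, g3, g4]
  module

/-- on a plane sum `d1` is a difference of two cells -/
theorem plane_d1 {E : Type*} [NormedAddCommGroup E] [NormedSpace ℝ E]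
    (c : ℤ) (ψ : ℤ → E) : ∑' b : ℤ, d1 (c - b) • ψ b = ψ (c - 1) - ψ (c - 3) := by
  have h2 : ∀ b ∉ ({c - 1, c - 3} : Finset ℤ), d1 (c - b) • ψ b = 0 := by
    intro b hb
    simp only [Finset.mem_insert, Finset.mem_singleton, not_or] at hb
    have e1 : ¬ c - b = 1 := by omega
    have e3 : ¬ c - b = 3 := by omega
    simp [d1, e1, e3]
  rw [tsum_eq_sum h2, Finset.sum_insert, Finset.sum_singleton]
  · have g1 : c - (c - 1) = 1 := by ring
    have g3 : c - (c - 3) = 3 := by ring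
    rw [g1, g3]
    norm_num [d1]
    exact (sub_eq_add_neg _ _).symm
  · simp only [Finset.mem_singleton]; omega

end

end Vale.Agent.P141.H208
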